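import Vale.Agent.P236.H49.Refl

/-!
# P236: certificates of helper361 for the relations between the cochains, checked by computation
-/

set_option maxRecDepth 100000

namespace Vale.Agent.P236.H49

open scoped TensorProduct
open Vale.Agent.P236

/-- the cobar words `T(P_*)` -/
abbrev T : Type := TensorAlgebra (ZMod 3) PS

/-- product of combinations of words -/
def mulW (l l' : LW) : LW :=
  (l.map fun t => l'.map fun t' => ((t.1 * t'.1) % 3, t.2 ++ t'.2)).flatten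

theorem evW_nil : evW [] = 0 := rfl

theorem evW_append (l l' : LW) : evW (l ++ l') = evW l + evW l' := evL_append _ _ _

theorem evW_scl (c : ℕ) (l : LW) : evW (scl c l) = (c : ZMod 3) • evW l := evL_scl _ _ _

theorem evW_mulW (l l' : LW) : evW (mulW l l') = evW l * evW l' := by
  unfold mulW evW
  rw [evL_flatten]
  induction l with
  | nil => simp
  | cons t l ih =>
    rw [List.map_cons, List.map_cons, List.sum_cons, ih, evL_cons, add_mul]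
    congr 1
    clear ih
    induction l' with
    | nil => simp
    | cons t' l' ih' =>
      rw [List.map_cons, evL_cons, ih', evL_cons, mul_add, vW_append]
      simp only [cast_mod, Nat.cast_mul]
      rw [smul_mul_smul_comm]

/-- `a_i = [ξ_1^(3^i)]` -/
noncomputable def a (i : ℕ) : T := vW [(3 ^ i, 0, 0)]
/-- `s_i = [ξ_1^(2 3^i)]` -/
noncomputable def s (i : ℕ) : T := vW [(2 * 3 ^ i, 0, 0)]
/-- `b_i = a_i s_i + s_i a_i` -/
noncomputable def b (i : ℕ) : T := a i * s i + s i * a i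
/-- `t = [ξ_2^3]` -/
noncomputable def t : T := vW [(0, 3, 0)]
/-- `t' = [ξ_1^12] - [ξ_2^3]` -/
noncomputable def tp : T := vW [(12, 0, 0)] - vW [(0, 3, 0)]
/-- `m = [ξ_1^9 ξ_2^3]` -/
noncomputable def m : T := vW [(9, 3, 0)]
/-- `g = t a_1 - a_2 s_1` -/
noncomputable def g : T := t * a 1 - a 2 * s 1
/-- `g' = a_1 t' - s_1 a_2` -/
noncomputable def gp : T := a 1 * tp - s 1 * a 2
/-- `k = a_2 t - s_2 a_1` -/
noncomputable def k : T := a 2 * t - s 2 * a 1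

/-- list form of `a_i` -/
def la (i : ℕ) : LW := [(1, [(3 ^ i, 0, 0)])]
/-- list form of `s_i` -/
def ls (i : ℕ) : LW := [(1, [(2 * 3 ^ i, 0, 0)])]
/-- list form of `b_i` -/
def lb (i : ℕ) : LW := mulW (la i) (ls i) ++ mulW (ls i) (la i)
/-- list form of `t` -/
def lt : LW := [(1, [(0, 3, 0)])]
/-- list form of `t'` -/
def ltp : LW := [(1, [(12, 0, 0)]), (2, [(0, 3, 0)])]
/-- list form of `g` -/
def lg : LW := mulW lt (la 1) ++ scl 2 (mulW (la 2) (ls 1))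
/-- list form of `g'` -/
def lgp : LW := mulW (la 1) ltp ++ scl 2 (mulW (ls 1) (la 2))
/-- list form of `k` -/
def lk : LW := mulW (la 2) lt ++ scl 2 (mulW (ls 2) (la 1))

theorem ev_la (i : ℕ) : evW (la i) = a i := by simp [evW, la, a]
theorem ev_ls (i : ℕ) : evW (ls i) = s i := by simp [evW, ls, s]
theorem ev_lb (i : ℕ) : evW (lb i) = b i := by
  simp only [lb, evW_append, evW_mulW, ev_la, ev_ls, b]
theorem ev_lt : evW lt = t := by simp [evW, lt, t]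
theorem ev_ltp : evW ltp = tp := by
  simp only [evW, ltp, tp, evL_cons, evL_nil, two_eq, Nat.cast_one, one_smul, neg_smul, add_zero]
  rw [sub_eq_add_neg]
theorem ev_lg : evW lg = g := by
  simp only [lg, evW_append, evW_mulW, evW_scl, ev_la, ev_ls, ev_lt, g, two_eq, neg_smul, one_smul]
  rw [sub_eq_add_neg]
theorem ev_lgp : evW lgp = gp := by
  simp only [lgp, evW_append, evW_mulW, evW_scl, ev_la, ev_ls, ev_ltp, gp, two_eq, neg_smul,
    one_smul]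
  rw [sub_eq_add_neg]
theorem ev_lk : evW lk = k := by
  simp only [lk, evW_append, evW_mulW, evW_scl, ev_la, ev_ls, ev_lt, k, two_eq, neg_smul, one_smul]
  rw [sub_eq_add_neg]

/-- `d c = a_1 b_1 - a_2 b_0` -/
def lC : LW :=
  [(1, [(0, 1, 0), (0, 2, 0)]), (1, [(0, 2, 0), (0, 1, 0)]), (1, [(3, 0, 0), (1, 2, 0)]),
    (2, [(3, 1, 0), (1, 1, 0)]), (1, [(3, 2, 0), (1, 0, 0)]), (1, [(6, 0, 0), (2, 1, 0)]),
    (1, [(6, 0, 0), (6, 0, 0)]), (1, [(6, 1, 0), (2, 0, 0)])]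

/-- `d c' = b_1 a_1 - b_0 a_2` -/
def lCp : LW :=
  [(1, [(0, 1, 0), (0, 2, 0)]), (1, [(0, 2, 0), (0, 1, 0)]), (2, [(1, 0, 0), (11, 0, 0)]),
    (2, [(2, 0, 0), (10, 0, 0)]), (1, [(3, 0, 0), (1, 2, 0)]), (2, [(3, 1, 0), (1, 1, 0)]),
    (1, [(3, 2, 0), (1, 0, 0)]), (1, [(6, 0, 0), (2, 1, 0)]), (1, [(6, 1, 0), (2, 0, 0)]),
    (2, [(10, 0, 0), (2, 0, 0)]), (2, [(11, 0, 0), (1, 0, 0)])]

/-- `d e_1 = b_0 g` -/
def lE1 : LW :=
  [(1, [(1, 0, 0), (0, 0, 1), (0, 1, 0)]), (2, [(1, 0, 0), (0, 0, 1), (4, 0, 0)]),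
    (2, [(1, 0, 0), (1, 0, 1), (3, 0, 0)]), (2, [(1, 0, 0), (1, 3, 0), (0, 1, 0)]),
    (1, [(1, 0, 0), (1, 3, 0), (4, 0, 0)]), (1, [(1, 0, 0), (2, 3, 0), (3, 0, 0)]),
    (2, [(1, 0, 0), (9, 0, 0), (0, 2, 0)]), (2, [(1, 0, 0), (9, 0, 0), (4, 1, 0)]),
    (2, [(1, 0, 0), (9, 0, 0), (8, 0, 0)]), (2, [(1, 0, 0), (10, 0, 0), (3, 1, 0)]),
    (1, [(1, 0, 0), (10, 0, 0), (7, 0, 0)]), (2, [(1, 0, 0), (11, 0, 0), (6, 0, 0)]),
    (1, [(2, 0, 0), (0, 0, 1), (3, 0, 0)]), (1, [(2, 0, 0), (0, 3, 0), (0, 1, 0)]),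
    (2, [(2, 0, 0), (0, 3, 0), (4, 0, 0)]), (1, [(2, 0, 0), (1, 3, 0), (3, 0, 0)]),
    (1, [(2, 0, 0), (9, 0, 0), (3, 1, 0)]), (2, [(2, 0, 0), (9, 0, 0), (7, 0, 0)]),
    (2, [(2, 0, 0), (10, 0, 0), (6, 0, 0)])]

/-- `d e_2 = g' b_0` -/
def lE2 : LW :=
  [(1, [(0, 0, 1), (0, 1, 0), (1, 0, 0)]), (2, [(0, 0, 1), (3, 0, 0), (2, 0, 0)]),
    (2, [(0, 3, 0), (0, 1, 0), (2, 0, 0)]), (1, [(0, 3, 0), (1, 1, 0), (1, 0, 0)]),
    (2, [(0, 3, 0), (4, 0, 0), (2, 0, 0)]), (1, [(3, 3, 0), (1, 0, 0), (2, 0, 0)]),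
    (1, [(3, 3, 0), (2, 0, 0), (1, 0, 0)]), (2, [(9, 0, 0), (0, 2, 0), (1, 0, 0)]),
    (2, [(9, 0, 0), (3, 1, 0), (2, 0, 0)]), (1, [(15, 0, 0), (1, 0, 0), (2, 0, 0)]),
    (1, [(15, 0, 0), (2, 0, 0), (1, 0, 0)])]

/-- `d n = b_0 k - k b_0` -/
def lN : LW :=
  [(1, [(1, 0, 0), (9, 0, 0), (2, 3, 0)]), (2, [(1, 0, 0), (10, 0, 0), (1, 3, 0)]),
    (1, [(1, 0, 0), (11, 0, 0), (0, 3, 0)]), (2, [(1, 0, 0), (18, 0, 0), (5, 0, 0)]),
    (1, [(1, 0, 0), (19, 0, 0), (4, 0, 0)]), (2, [(1, 0, 0), (20, 0, 0), (3, 0, 0)]),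
    (1, [(2, 0, 0), (9, 0, 0), (1, 3, 0)]), (1, [(2, 0, 0), (10, 0, 0), (0, 3, 0)]),
    (2, [(2, 0, 0), (18, 0, 0), (4, 0, 0)]), (2, [(2, 0, 0), (19, 0, 0), (3, 0, 0)]),
    (2, [(9, 0, 0), (1, 3, 0), (2, 0, 0)]), (2, [(9, 0, 0), (2, 3, 0), (1, 0, 0)]),
    (2, [(10, 0, 0), (0, 3, 0), (2, 0, 0)]), (1, [(10, 0, 0), (1, 3, 0), (1, 0, 0)]),
    (2, [(11, 0, 0), (0, 3, 0), (1, 0, 0)]), (1, [(18, 0, 0), (4, 0, 0), (2, 0, 0)]),
    (1, [(18, 0, 0), (5, 0, 0), (1, 0, 0)]), (1, [(19, 0, 0), (3, 0, 0), (2, 0, 0)]),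
    (2, [(19, 0, 0), (4, 0, 0), (1, 0, 0)]), (1, [(20, 0, 0), (3, 0, 0), (1, 0, 0)])]

/-- `d r = k a_0` -/
def lR : LW :=
  [(1, [(9, 0, 0), (0, 0, 1)]), (2, [(18, 0, 0), (0, 1, 0)])]

/-- `d q = a_0 k` -/
def lQ : LW :=
  [(1, [(0, 1, 0), (18, 0, 0)]), (2, [(1, 0, 0), (21, 0, 0)]), (2, [(4, 0, 0), (18, 0, 0)]),
    (1, [(9, 0, 0), (0, 0, 1)]), (2, [(9, 0, 0), (1, 3, 0)]), (2, [(9, 0, 0), (9, 1, 0)]),
    (1, [(9, 0, 0), (13, 0, 0)]), (2, [(9, 1, 0), (9, 0, 0)]), (2, [(10, 0, 0), (0, 3, 0)]),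
    (1, [(10, 0, 0), (12, 0, 0)]), (1, [(13, 0, 0), (9, 0, 0)])]

/-! ### the relations -/

theorem d_c : dP (evW lC) = a 1 * b 1 - a 2 * b 0 := by
  have h := of_chk (n := 100000) (m := 100) (l := lC)
    (r := mulW (la 1) (lb 1) ++ scl 2 (mulW (la 2) (lb 0))) (by decide +kernel)
  rw [h, evW_append, evW_scl, evW_mulW, evW_mulW, ev_la, ev_la, ev_lb, ev_lb, two_eq]
  simp only [neg_smul, one_smul]; rw [sub_eq_add_neg]

theorem d_cp : dP (evW lCp) = b 1 * a 1 - b 0 * a 2 := by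
  have h := of_chk (n := 100000) (m := 100) (l := lCp)
    (r := mulW (lb 1) (la 1) ++ scl 2 (mulW (lb 0) (la 2))) (by decide +kernel)
  rw [h, evW_append, evW_scl, evW_mulW, evW_mulW, ev_la, ev_la, ev_lb, ev_lb, two_eq]
  simp only [neg_smul, one_smul]; rw [sub_eq_add_neg]

theorem d_e1 : dP (evW lE1) = b 0 * g := by
  have h := of_chk (n := 100000) (m := 100) (l := lE1) (r := mulW (lb 0) lg) (by decide +kernel)
  rw [h, evW_mulW, ev_lb, ev_lg]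

theorem d_e2 : dP (evW lE2) = gp * b 0 := by
  have h := of_chk (n := 100000) (m := 100) (l := lE2) (r := mulW lgp (lb 0)) (by decide +kernel)
  rw [h, evW_mulW, ev_lb, ev_lgp]

theorem d_n : dP (evW lN) = b 0 * k - k * b 0 := by
  have h := of_chk (n := 100000) (m := 100) (l := lN)
    (r := mulW (lb 0) lk ++ scl 2 (mulW lk (lb 0))) (by decide +kernel)
  rw [h, evW_append, evW_scl, evW_mulW, evW_mulW, ev_lb, ev_lk, two_eq]
  simp only [neg_smul, one_smul]; rw [sub_eq_add_neg]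

theorem d_r : dP (evW lR) = k * a 0 := by
  have h := of_chk (n := 100000) (m := 100) (l := lR) (r := mulW lk (la 0)) (by decide +kernel)
  rw [h, evW_mulW, ev_la, ev_lk]

theorem d_q : dP (evW lQ) = a 0 * k := by
  have h := of_chk (n := 100000) (m := 100) (l := lQ) (r := mulW (la 0) lk) (by decide +kernel)
  rw [h, evW_mulW, ev_la, ev_lk]

theorem d_m : dP m = k - a 2 * tp - t * a 2 := by
  have h := of_chk (n := 100000) (m := 100) (l := [(1, [(9, 3, 0)])])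
    (r := lk ++ (scl 2 (mulW (la 2) ltp) ++ scl 2 (mulW lt (la 2)))) (by decide +kernel)
  have h2 : evW [(1, [(9, 3, 0)])] = m := by simp [evW, m]
  rw [h2] at h
  rw [h, evW_append, evW_append, evW_scl, evW_scl, evW_mulW, evW_mulW, ev_la, ev_lk, ev_ltp,
    ev_lt, two_eq]
  simp only [neg_smul, one_smul]; abel

theorem d_t : dP t = -(a 2 * a 1) := by
  have h := of_chk (n := 100000) (m := 100) (l := lt)
    (r := scl 2 (mulW (la 2) (la 1))) (by decide +kernel)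
  rw [ev_lt] at h
  rw [h, evW_scl, evW_mulW, ev_la, ev_la, two_eq]
  simp only [neg_smul, one_smul]

theorem d_tp : dP tp = -(a 1 * a 2) := by
  have h := of_chk (n := 100000) (m := 100) (l := ltp)
    (r := scl 2 (mulW (la 1) (la 2))) (by decide +kernel)
  rw [ev_ltp] at h
  rw [h, evW_scl, evW_mulW, ev_la, ev_la, two_eq]
  simp only [neg_smul, one_smul]

theorem d_a0 : dP (a 0) = 0 := by
  have h := of_chk (n := 100000) (m := 100) (l := la 0) (r := []) (by decide +kernel)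
  rwa [ev_la, evW_nil] at h

theorem d_a1 : dP (a 1) = 0 := by
  have h := of_chk (n := 100000) (m := 100) (l := la 1) (r := []) (by decide +kernel)
  rwa [ev_la, evW_nil] at h

theorem d_a2 : dP (a 2) = 0 := by
  have h := of_chk (n := 100000) (m := 100) (l := la 2) (r := []) (by decide +kernel)
  rwa [ev_la, evW_nil] at h

theorem d_s0 : dP (s 0) = a 0 * a 0 := by
  have h := of_chk (n := 100000) (m := 100) (l := ls 0) (r := mulW (la 0) (la 0))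
    (by decide +kernel)
  rwa [ev_ls, evW_mulW, ev_la] at h

theorem d_s1 : dP (s 1) = a 1 * a 1 := by
  have h := of_chk (n := 100000) (m := 100) (l := ls 1) (r := mulW (la 1) (la 1))
    (by decide +kernel)
  rwa [ev_ls, evW_mulW, ev_la] at h

theorem d_s2 : dP (s 2) = a 2 * a 2 := by
  have h := of_chk (n := 100000) (m := 100) (l := ls 2) (r := mulW (la 2) (la 2))
    (by decide +kernel)
  rwa [ev_ls, evW_mulW, ev_la] at h

end Vale.Agent.P236.H49
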