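import Vale.Agent.P236.Cob

/-!
# P236: the cobar complex is a complex
-/

namespace Vale.Agent.P236.H49

open scoped TensorProduct
open Vale.Agent.P236

section DD

variable {K C : Type*} [CommRing K] [AddCommGroup C] [Module K C]
variable (Δ : C →ₗ[K] C ⊗[K] C) (e : C)

theorem sg_sg (w : TensorAlgebra K C) : sg K C (sg K C w) = w := by
  induction w using TensorAlgebra.induction with
  | algebraMap r => simp
  | ι x => simp
  | mul a b ha hb => simp [ha, hb]
  | add a b ha hb => simp [ha, hb]

theorem sg_two (t : C ⊗[K] C) : sg K C (two K C t) = two K C t := by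
  induction t with
  | zero => simp
  | tmul x y => simp
  | add x y hx hy => simp [hx, hy]

/-- `σ d = - d σ` -/
theorem sg_dCob (w : TensorAlgebra K C) : sg K C (dCob Δ e w) = -(dCob Δ e (sg K C w)) := by
  induction w using TensorAlgebra.induction with
  | algebraMap r => simp
  | ι x =>
    rw [dCob_ι, sg_ι, map_neg, dCob_ι, dOne_apply, map_sub, map_add, sg_two]
    simp
  | mul a b ha hb =>
    rw [dCob_mul, map_add, map_mul, map_mul, ha, hb, sg_sg, map_mul, dCob_mul, sg_sg]
    noncomm_ring
  | add a b ha hb => rw [map_add, map_add, ha, hb, map_add, map_add]; abel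

/-- `x ⊗ (y ⊗ z) ↦ [x|y|z]` -/
noncomputable def three (K C : Type*) [CommRing K] [AddCommGroup C] [Module K C] :
    C ⊗[K] (C ⊗[K] C) →ₗ[K] TensorAlgebra K C :=
  TensorProduct.lift ((LinearMap.mul K (TensorAlgebra K C)).compl₁₂ (TensorAlgebra.ι K) (two K C))

@[simp] theorem three_tmul (x : C) (t : C ⊗[K] C) :
    three K C (x ⊗ₜ[K] t) = TensorAlgebra.ι K x * two K C t := by
  simp [three]

theorem three_assoc (t : C ⊗[K] C) (z : C) :
    three K C (TensorProduct.assoc K C C C (t ⊗ₜ[K] z)) = two K C t * TensorAlgebra.ι K z := by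
  induction t with
  | zero => simp
  | tmul x y => simp [mul_assoc]
  | add x y hx hy => simp only [TensorProduct.add_tmul, map_add, hx, hy, add_mul]

theorem dCob_two (t : C ⊗[K] C) :
    dCob Δ e (two K C t) = TensorAlgebra.ι K e * two K C t - two K C t * TensorAlgebra.ι K e -
      (three K C (TensorProduct.assoc K C C C (TensorProduct.map Δ LinearMap.id t)) -
        three K C (TensorProduct.map LinearMap.id Δ t)) := by
  induction t with
  | zero => simp
  | tmul x y =>
    rw [two_tmul, dCob_mul, sg_ι, dCob_ι, dCob_ι, dOne_apply, dOne_apply]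
    rw [TensorProduct.map_tmul, TensorProduct.map_tmul, LinearMap.id_apply, LinearMap.id_apply,
      three_assoc, three_tmul]
    noncomm_ring
  | add x y hx hy =>
    simp only [map_add, hx, hy, mul_add, add_mul]
    abel

/-- `d d = 0` in the cobar complex of a coassociative coalgebra with unit -/
theorem dCob_dCob
    (hΔ : ∀ x, TensorProduct.assoc K C C C (TensorProduct.map Δ LinearMap.id (Δ x)) =
      TensorProduct.map LinearMap.id Δ (Δ x))
    (he : Δ e = e ⊗ₜ[K] e) (w : TensorAlgebra K C) : dCob Δ e (dCob Δ e w) = 0 := by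
  induction w using TensorAlgebra.induction with
  | algebraMap r => simp
  | ι x =>
    have h1 : dOne Δ e e = TensorAlgebra.ι K e * TensorAlgebra.ι K e := by
      rw [dOne_apply, he, two_tmul]; abel
    rw [dCob_ι, dOne_apply, map_sub, map_add, dCob_mul, dCob_mul, dCob_two, hΔ]
    rw [sg_ι, sg_ι, dCob_ι, dCob_ι, h1, dOne_apply]
    noncomm_ring
  | mul a b ha hb =>
    rw [dCob_mul, map_add, dCob_mul, dCob_mul, ha, hb, sg_sg, sg_dCob]
    noncomm_ring
  | add a b ha hb => rw [map_add, map_add, ha, hb, add_zero]

end DD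

end Vale.Agent.P236.H49
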