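import Vale.Agent.P236.H49.More
import Vale.Agent.P236.H361.Contrast
import Vale.Agent.P236.H271.Dual

/-!
# P236: the cochains `h_j`, `b_j` in the cobar complex of the dual Steenrod algebra
-/

namespace Vale.Agent.P236.H49

open scoped TensorProduct
open Vale.Agent.P236 Vale.Agent.P236.H271

/-- the cochain `h_j = [ξ_1^(3^j)]` of the dual Steenrod algebra -/
noncomputable def hA (j : ℕ) : TensorAlgebra (ZMod 3) AS :=
  let1 (ZMod 3) (inc (xi 1) ^ 3 ^ j)

/-- the Kervaire cochain `b_j = ∑_{0<i<3} (1/3) binom(3,i) [ξ_1^(i 3^j) | ξ_1^((3-i) 3^j)]` of the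
dual Steenrod algebra -/
noncomputable def bA (j : ℕ) : TensorAlgebra (ZMod 3) AS :=
  let1 (ZMod 3) (inc (xi 1) ^ 3 ^ j) * let1 (ZMod 3) (inc (xi 1) ^ (2 * 3 ^ j)) +
    let1 (ZMod 3) (inc (xi 1) ^ (2 * 3 ^ j)) * let1 (ZMod 3) (inc (xi 1) ^ 3 ^ j)

theorem mapT_hP (j : ℕ) : mapT inc.toLinearMap (hP j) = hA j := by
  simp [hP, hA, let1]

theorem mapT_bP (j : ℕ) : mapT inc.toLinearMap (bP j) = bA j := by
  simp [bP, bA, let1]

theorem mapT_prj_inc (z : TensorAlgebra (ZMod 3) PS) : mapT prj (mapT inc.toLinearMap z) = z := by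
  induction z using TensorAlgebra.induction with
  | algebraMap c => simp
  | ι x => simp [prj_inc]
  | mul u v hu hv => simp [hu, hv]
  | add u v hu hv => simp [hu, hv]

/-- coboundaries of `P_*` are coboundaries of `A_*` -/
theorem cobA {s : ℕ} {z : TensorAlgebra (ZMod 3) PS} (h : IsCob ΔP.toLinearMap (1 : PS) s z) :
    IsCob ΔA (1 : AS) s (mapT inc.toLinearMap z) := h.map coMap_inc

/-- a cochain of `P_*` that bounds in `A_*` bounds in `P_*` -/
theorem cobA_iff {s : ℕ} {z : TensorAlgebra (ZMod 3) PS} :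
    IsCob ΔA (1 : AS) s (mapT inc.toLinearMap z) ↔ IsCob ΔP.toLinearMap (1 : PS) s z := by
  refine ⟨fun h => ?_, cobA⟩
  have h1 := h.map coMap_prj
  rwa [mapT_prj_inc] at h1

end Vale.Agent.P236.H49
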