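import Vale.Agent.P236.H49.Cert

/-!
# P236: `b_j^3` is a coboundary for `j ≥ 2`, and `h_0 b_j^3` is one for `j ≥ 1`
-/

namespace Vale.Agent.P236.H49

open scoped TensorProduct
open Vale.Agent.P236

/-! ### degrees -/

theorem deg_mul {u v : T} {n k' : ℕ} (hu : u ∈ deg (ZMod 3) PS n) (hv : v ∈ deg (ZMod 3) PS k') :
    u * v ∈ deg (ZMod 3) PS (n + k') := by
  unfold deg at *
  rw [pow_add]
  exact Submodule.mul_mem_mul hu hv

theorem deg_ι (x : PS) : TensorAlgebra.ι (ZMod 3) x ∈ deg (ZMod 3) PS 1 := by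
  unfold deg
  rw [pow_one]
  exact ⟨x, rfl⟩

theorem deg_vW (w : List Mo) : vW w ∈ deg (ZMod 3) PS w.length := by
  induction w with
  | nil =>
    unfold deg
    simp only [vW_nil, List.length_nil, pow_zero]
    exact Submodule.one_le.mp le_rfl
  | cons x w ih =>
    rw [vW_cons, List.length_cons, Nat.add_comm]
    exact deg_mul (deg_ι _) ih

theorem deg_evW (n : ℕ) (l : LW) (h : l.all (fun x => x.2.length == n) = true) :
    evW l ∈ deg (ZMod 3) PS n := by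
  induction l with
  | nil => rw [evW_nil]; exact Submodule.zero_mem _
  | cons x l ih =>
    simp only [List.all_cons, Bool.and_eq_true, beq_iff_eq] at h
    unfold evW at *
    rw [evL_cons]
    refine Submodule.add_mem _ (Submodule.smul_mem _ _ ?_) (ih h.2)
    have := deg_vW x.2
    rwa [h.1] at this

theorem deg_a (i : ℕ) : a i ∈ deg (ZMod 3) PS 1 := deg_vW [(3 ^ i, 0, 0)]
theorem deg_s (i : ℕ) : s i ∈ deg (ZMod 3) PS 1 := deg_vW [(2 * 3 ^ i, 0, 0)]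
theorem deg_b (i : ℕ) : b i ∈ deg (ZMod 3) PS 2 :=
  Submodule.add_mem _ (deg_mul (deg_a i) (deg_s i)) (deg_mul (deg_s i) (deg_a i))
theorem deg_t : t ∈ deg (ZMod 3) PS 1 := deg_vW [(0, 3, 0)]
theorem deg_m : m ∈ deg (ZMod 3) PS 1 := deg_vW [(9, 3, 0)]
theorem deg_tp : tp ∈ deg (ZMod 3) PS 1 :=
  Submodule.sub_mem _ (deg_vW [(12, 0, 0)]) (deg_vW [(0, 3, 0)])
theorem deg_k : k ∈ deg (ZMod 3) PS 2 :=
  Submodule.sub_mem _ (deg_mul (deg_a _) deg_t) (deg_mul (deg_s _) (deg_a _))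

theorem deg_c : evW lC ∈ deg (ZMod 3) PS 2 := deg_evW _ _ (by decide +kernel)
theorem deg_cp : evW lCp ∈ deg (ZMod 3) PS 2 := deg_evW _ _ (by decide +kernel)
theorem deg_e1 : evW lE1 ∈ deg (ZMod 3) PS 3 := deg_evW _ _ (by decide +kernel)
theorem deg_e2 : evW lE2 ∈ deg (ZMod 3) PS 3 := deg_evW _ _ (by decide +kernel)
theorem deg_n : evW lN ∈ deg (ZMod 3) PS 3 := deg_evW _ _ (by decide +kernel)
theorem deg_r : evW lR ∈ deg (ZMod 3) PS 2 := deg_evW _ _ (by decide +kernel)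
theorem deg_q : evW lQ ∈ deg (ZMod 3) PS 2 := deg_evW _ _ (by decide +kernel)

/-! ### signs -/

/-- on words of degree `n` the sign map is `(-1)^n` -/
theorem sg_deg {w : T} {n : ℕ} (hw : w ∈ deg (ZMod 3) PS n) :
    sg (ZMod 3) PS w = (-1) ^ n * w := by
  unfold deg at hw
  induction n generalizing w with
  | zero =>
    rw [pow_zero, Submodule.mem_one] at hw
    obtain ⟨y, rfl⟩ := hw
    simp
  | succ n ih =>
    rw [pow_succ] at hw
    refine Submodule.mul_induction_on hw ?_ ?_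
    · rintro u hu _ ⟨x, rfl⟩
      rw [map_mul, ih hu, sg_ι, pow_succ]
      simp [mul_assoc]
    · intro u v hu hv
      rw [map_add, hu, hv, mul_add]

/-- Leibniz rule, even first factor -/
theorem d_mul_even {u : T} {n : ℕ} (hu : u ∈ deg (ZMod 3) PS (2 * n)) (v : T) :
    dP (u * v) = dP u * v + u * dP v := by
  rw [dCob_mul, sg_deg hu, pow_mul]; simp

/-- Leibniz rule, odd first factor -/
theorem d_mul_odd {u : T} {n : ℕ} (hu : u ∈ deg (ZMod 3) PS (2 * n + 1)) (v : T) :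
    dP (u * v) = dP u * v - u * dP v := by
  rw [dCob_mul, sg_deg hu, pow_succ, pow_mul]; simp [sub_eq_add_neg]

theorem d1 {u : T} (hu : u ∈ deg (ZMod 3) PS 1) (v : T) : dP (u * v) = dP u * v - u * dP v :=
  d_mul_odd (n := 0) (by simpa using hu) v
theorem d2 {u : T} (hu : u ∈ deg (ZMod 3) PS 2) (v : T) : dP (u * v) = dP u * v + u * dP v :=
  d_mul_even (n := 1) (by simpa using hu) v
theorem d3 {u : T} (hu : u ∈ deg (ZMod 3) PS 3) (v : T) : dP (u * v) = dP u * v - u * dP v :=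
  d_mul_odd (n := 1) (by simpa using hu) v

theorem d_b0 : dP (b 0) = 0 := by
  unfold b
  rw [map_add, d1 (deg_a 0), d1 (deg_s 0), d_a0, d_s0]
  noncomm_ring

theorem d_b1 : dP (b 1) = 0 := by
  unfold b
  rw [map_add, d1 (deg_a 1), d1 (deg_s 1), d_a1, d_s1]
  noncomm_ring

theorem d_k : dP k = 0 := by
  unfold k
  rw [map_sub, d1 (deg_a 2), d1 (deg_s 2), d_a1, d_a2, d_s2, d_t]
  noncomm_ring

/-! ### weight 15 and 18 -/

/-- `w = s_1 b_1 + a_1 c + t' b_0` -/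
noncomputable def ww : T := s 1 * b 1 + a 1 * evW lC + tp * b 0
/-- `y = s_1 c + e_2` -/
noncomputable def yy : T := s 1 * evW lC + evW lE2

theorem deg_ww : ww ∈ deg (ZMod 3) PS 3 :=
  Submodule.add_mem _ (Submodule.add_mem _ (deg_mul (deg_s 1) (deg_b 1))
    (deg_mul (deg_a 1) deg_c)) (deg_mul deg_tp (deg_b 0))
theorem deg_yy : yy ∈ deg (ZMod 3) PS 3 :=
  Submodule.add_mem _ (deg_mul (deg_s 1) deg_c) deg_e2

theorem d_ww : dP ww = 0 := by
  unfold ww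
  rw [map_add, map_add, d1 (deg_s 1), d1 (deg_a 1), d1 deg_tp, d_s1, d_a1, d_tp, d_b1, d_b0, d_c]
  noncomm_ring

theorem d_yy : dP yy = a 1 * ww - b 1 * b 1 := by
  unfold yy
  rw [map_add, d1 (deg_s 1), d_s1, d_c, d_e2]
  simp only [gp, ww, b]
  noncomm_ring

theorem a2_ww : a 2 * ww = k * b 0 - dP m * b 0 - g * b 1 - dP (t * evW lC) := by
  rw [d1 deg_t, d_t, d_c, d_m]
  simp only [g, ww]
  noncomm_ring

/-- `b_1^3 = b_0 k b_0 + d(xx)` -/
noncomputable def xx : T := evW lCp * ww - b 1 * yy - b 0 * m * b 0 - evW lE1 * b 1 -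
  b 0 * (t * evW lC)

theorem deg_xx : xx ∈ deg (ZMod 3) PS 5 := by
  refine Submodule.sub_mem _ (Submodule.sub_mem _ (Submodule.sub_mem _ (Submodule.sub_mem _
    ?_ ?_) ?_) ?_) ?_
  · exact deg_mul deg_cp deg_ww
  · exact deg_mul (deg_b 1) deg_yy
  · exact deg_mul (deg_mul (deg_b 0) deg_m) (deg_b 0)
  · exact deg_mul deg_e1 (deg_b 1)
  · exact deg_mul (deg_b 0) (deg_mul deg_t deg_c)

theorem d_xx : dP xx = b 1 * b 1 * b 1 - b 0 * k * b 0 := by
  have h1 : dP (evW lCp * ww) = (b 1 * a 1 - b 0 * a 2) * ww := by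
    rw [d2 deg_cp, d_cp, d_ww]; simp
  have h2 : dP (b 1 * yy) = b 1 * (a 1 * ww - b 1 * b 1) := by
    rw [d2 (deg_b 1), d_b1, d_yy]; simp
  have h3 : dP (b 0 * m * b 0) = b 0 * dP m * b 0 := by
    rw [mul_assoc, d2 (deg_b 0), d_b0, d1 deg_m, d_b0]; noncomm_ring
  have h4 : dP (evW lE1 * b 1) = b 0 * g * b 1 := by
    rw [d3 deg_e1, d_e1, d_b1]; simp
  have h5 : dP (b 0 * (t * evW lC)) = b 0 * dP (t * evW lC) := by
    rw [d2 (deg_b 0), d_b0]; simp
  unfold xx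
  rw [map_sub, map_sub, map_sub, map_sub, h1, h2, h3, h4, h5]
  have h6 : b 0 * (a 2 * ww) =
      b 0 * (k * b 0 - dP m * b 0 - g * b 1 - dP (t * evW lC)) := by rw [a2_ww]
  have h7 : (b 1 * a 1 - b 0 * a 2) * ww = b 1 * (a 1 * ww) - b 0 * (a 2 * ww) := by
    noncomm_ring
  rw [h7, h6]
  noncomm_ring

/-- `h_0 b_1^3` is a coboundary -/
theorem h0b1 : IsCob ΔP.toLinearMap (1 : PS) 6 (a 0 * b 1 * b 1 * b 1) := by
  refine ⟨b 0 * evW lQ * b 0 + s 0 * s 0 * (k * b 0) - a 0 * xx, ?_, ?_⟩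
  · refine Submodule.sub_mem _ (Submodule.add_mem _ ?_ ?_) ?_
    · exact deg_mul (deg_mul (deg_b 0) deg_q) (deg_b 0)
    · exact deg_mul (deg_mul (deg_s 0) (deg_s 0)) (deg_mul deg_k (deg_b 0))
    · exact deg_mul (deg_a 0) deg_xx
  · have h1 : dP (b 0 * evW lQ * b 0) = b 0 * (a 0 * k) * b 0 := by
      rw [mul_assoc, d2 (deg_b 0), d_b0, d2 deg_q, d_q, d_b0]; noncomm_ring
    have h2 : dP (s 0 * s 0 * (k * b 0)) = (a 0 * a 0 * s 0 - s 0 * (a 0 * a 0)) * (k * b 0) := by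
      have h3 : dP (s 0 * s 0) = a 0 * a 0 * s 0 - s 0 * (a 0 * a 0) := by
        rw [d1 (deg_s 0), d_s0]
      have h4 : dP (k * b 0) = 0 := by rw [d2 deg_k, d_k, d_b0]; simp
      rw [d2 (deg_mul (deg_s 0) (deg_s 0)), h3, h4]; simp
    have h5 : dP (a 0 * xx) = -(a 0 * (b 1 * b 1 * b 1 - b 0 * k * b 0)) := by
      rw [d1 (deg_a 0), d_a0, d_xx]; simp
    change dP _ = _
    rw [map_sub, map_add, h1, h2, h5]
    simp only [b]
    noncomm_ring

/-! ### Frobenius -/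

/-- Frobenius of `P_*` -/
noncomputable def frob : PS →ₐ[ZMod 3] PS := MvPolynomial.expand 3

theorem frob_apply (x : PS) : frob x = x ^ 3 := by
  have := MvPolynomial.frobenius_zmod (p := 3) x
  rw [frob, ← this]
  rfl

/-- the tensor square of Frobenius is the cube -/
theorem map_frob (z : PS ⊗[ZMod 3] PS) :
    TensorProduct.map frob.toLinearMap frob.toLinearMap z = z ^ 3 := by
  have : CharP (PS ⊗[ZMod 3] PS) 3 := by
    have : Nontrivial (PS ⊗[ZMod 3] PS) := inferInstance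
    exact charP_of_injective_algebraMap (algebraMap (ZMod 3) (PS ⊗[ZMod 3] PS)).injective 3
  induction z with
  | zero => simp
  | tmul x y =>
    rw [TensorProduct.map_tmul, Algebra.TensorProduct.tmul_pow]
    simp [frob_apply]
  | add x y hx hy => rw [map_add, hx, hy, add_pow_char]

theorem coMap_frob : CoMap ΔP.toLinearMap (1 : PS) ΔP.toLinearMap (1 : PS) frob.toLinearMap where
  unit := by simp
  comul x := by
    rw [map_frob]
    simp [frob_apply]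

/-- Frobenius on words -/
noncomputable def Fr : T →ₐ[ZMod 3] T := mapT frob.toLinearMap

theorem Fr_d (w : T) : dP (Fr w) = Fr (dP w) := (map_dCob coMap_frob w).symm

theorem Fr_deg {w : T} {n : ℕ} (h : w ∈ deg (ZMod 3) PS n) : Fr w ∈ deg (ZMod 3) PS n :=
  map_deg _ h

theorem Fr_vW (n : ℕ) : Fr (vW [(n, 0, 0)]) = vW [(n * 3, 0, 0)] := by
  simp only [vW_cons, vW_nil, mul_one, Fr, mapT_ι, mo, pow_zero]
  congr 1
  simp [frob_apply, pow_mul]

theorem Fr_a (i : ℕ) : Fr (a i) = a (i + 1) := by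
  unfold a; rw [Fr_vW, pow_succ]
theorem Fr_s (i : ℕ) : Fr (s i) = s (i + 1) := by
  unfold s; rw [Fr_vW, pow_succ, mul_assoc]
theorem Fr_b (i : ℕ) : Fr (b i) = b (i + 1) := by
  unfold b; rw [map_add, map_mul, map_mul, Fr_a, Fr_s]

/-! ### the null-homotopy of `b_2^3` -/

/-- the null-homotopy -/
noncomputable def zz : T := -(b 2 * Fr yy) + Fr (evW lCp) * Fr ww - b 1 * Fr (t * evW lC) -
  Fr (evW lE1) * b 2 - b 1 * Fr m * b 1 + Fr (evW lN) * b 1 + Fr (evW lR) * ww - Fr k * yy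

theorem deg_zz : zz ∈ deg (ZMod 3) PS 5 := by
  refine Submodule.sub_mem _ (Submodule.add_mem _ (Submodule.add_mem _ (Submodule.sub_mem _
    (Submodule.sub_mem _ (Submodule.sub_mem _ (Submodule.add_mem _ (Submodule.neg_mem _ ?_)
    ?_) ?_) ?_) ?_) ?_) ?_) ?_
  · exact deg_mul (deg_b 2) (Fr_deg deg_yy)
  · exact deg_mul (Fr_deg deg_cp) (Fr_deg deg_ww)
  · exact deg_mul (deg_b 1) (Fr_deg (deg_mul deg_t deg_c))
  · exact deg_mul (Fr_deg deg_e1) (deg_b 2)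
  · exact deg_mul (deg_mul (deg_b 1) (Fr_deg deg_m)) (deg_b 1)
  · exact deg_mul (Fr_deg deg_n) (deg_b 1)
  · exact deg_mul (Fr_deg deg_r) deg_ww
  · exact deg_mul (Fr_deg deg_k) deg_yy

theorem d_b2 : dP (b 2) = 0 := by
  rw [← Fr_b 1, Fr_d, d_b1, map_zero]

theorem d_zz : dP zz = b 2 * b 2 * b 2 := by
  have e1 : dP (b 2 * Fr yy) = b 2 * (a 2 * Fr ww - b 2 * b 2) := by
    rw [d2 (deg_b 2), d_b2, Fr_d, d_yy, map_sub, map_mul, map_mul, Fr_a, Fr_b]; simp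
  have e2 : dP (Fr (evW lCp) * Fr ww) = (b 2 * a 2 - b 1 * a 3) * Fr ww := by
    rw [d2 (Fr_deg deg_cp), Fr_d, d_cp, Fr_d, d_ww, map_sub, map_mul, map_mul, Fr_a, Fr_a, Fr_b,
      Fr_b]; simp
  have e3 : dP (b 1 * Fr (t * evW lC)) = b 1 * Fr (dP (t * evW lC)) := by
    rw [d2 (deg_b 1), d_b1, Fr_d]; simp
  have e4 : dP (Fr (evW lE1) * b 2) = b 1 * Fr g * b 2 := by
    rw [d3 (Fr_deg deg_e1), Fr_d, d_e1, d_b2, map_mul, Fr_b]; simp
  have e5 : dP (b 1 * Fr m * b 1) = b 1 * Fr (dP m) * b 1 := by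
    rw [mul_assoc, d2 (deg_b 1), d_b1, d1 (Fr_deg deg_m), d_b1, Fr_d]; noncomm_ring
  have e6 : dP (Fr (evW lN) * b 1) = (b 1 * Fr k - Fr k * b 1) * b 1 := by
    rw [d3 (Fr_deg deg_n), Fr_d, d_n, d_b1, map_sub, map_mul, map_mul, Fr_b]; simp
  have e7 : dP (Fr (evW lR) * ww) = Fr k * a 1 * ww := by
    rw [d2 (Fr_deg deg_r), Fr_d, d_r, d_ww, map_mul, Fr_a]; simp
  have e8 : dP (Fr k * yy) = Fr k * (a 1 * ww - b 1 * b 1) := by
    rw [d2 (Fr_deg deg_k), Fr_d, d_k, d_yy]; simp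
  have f : a 3 * Fr ww = Fr k * b 1 - Fr (dP m) * b 1 - Fr g * b 2 - Fr (dP (t * evW lC)) := by
    have := congrArg Fr a2_ww
    simpa only [map_sub, map_mul, Fr_a, Fr_b] using this
  have f2 : (b 2 * a 2 - b 1 * a 3) * Fr ww = b 2 * (a 2 * Fr ww) - b 1 * (a 3 * Fr ww) := by
    noncomm_ring
  unfold zz
  simp only [map_sub, map_add, map_neg]
  rw [e1, e2, e3, e4, e5, e6, e7, e8, f2, f]
  noncomm_ring

theorem b2_cube : IsCob ΔP.toLinearMap (1 : PS) 5 (b 2 * b 2 * b 2) := ⟨zz, deg_zz, d_zz⟩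

theorem b_cube (j : ℕ) : IsCob ΔP.toLinearMap (1 : PS) 5 (b (j + 2) * b (j + 2) * b (j + 2)) := by
  induction j with
  | zero => exact b2_cube
  | succ j ih =>
    have h := ih.map coMap_frob
    change IsCob _ _ _ (Fr _) at h
    simpa only [map_mul, Fr_b] using h

/-! ### the official cochains -/

theorem bP_eq (j : ℕ) : bP j = b j := by
  simp [bP, b, a, s, let1, xi, mo]

theorem hP_eq (j : ℕ) : hP j = a j := by
  simp [hP, a, let1, xi, mo]

theorem cube_cob {j : ℕ} (hj : 2 ≤ j) : IsCob ΔP.toLinearMap (1 : PS) 5 (bP j * bP j * bP j) := by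
  obtain ⟨n, rfl⟩ := Nat.exists_eq_add_of_le hj
  rw [bP_eq, Nat.add_comm]
  exact b_cube n

theorem target_cob {j : ℕ} (hj : 1 ≤ j) :
    IsCob ΔP.toLinearMap (1 : PS) 6 (hP 0 * bP j * bP j * bP j) := by
  rcases Nat.lt_or_ge j 2 with h | h
  · have : j = 1 := by omega
    subst this
    rw [bP_eq, hP_eq]
    exact h0b1
  · obtain ⟨w, hw, hd⟩ := cube_cob h
    refine ⟨-(hP 0 * w), ?_, ?_⟩
    · rw [hP_eq]
      exact Submodule.neg_mem _ (deg_mul (deg_a 0) hw)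
    · change dP _ = _
      change dP w = _ at hd
      rw [map_neg, hP_eq, d1 (deg_a 0), d_a0, hd]
      noncomm_ring

end Vale.Agent.P236.H49
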