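import Vale.Agent.P236.H49.Main
import Vale.Agent.P236.H49.DD

/-!
# P236: `b_j^2` is divisible by `h_j`, and `h_{j+1} b_j^2 = h_{j-1} b_j^2 = 0`, for `j ≥ 1`
-/

set_option maxRecDepth 100000

namespace Vale.Agent.P236.H49

open scoped TensorProduct
open Vale.Agent.P236

/-- `T_0 = [ξ_1^4] - [ξ_2]` -/
noncomputable def t0 : T := vW [(4, 0, 0)] - vW [(0, 1, 0)]

theorem deg_t0 : t0 ∈ deg (ZMod 3) PS 1 :=
  Submodule.sub_mem _ (deg_vW [(4, 0, 0)]) (deg_vW [(0, 1, 0)])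

theorem d_t0 : dP t0 = -(a 0 * a 1) := by
  have h := of_chk (n := 1000) (m := 100) (l := [(1, [(4, 0, 0)]), (2, [(0, 1, 0)])])
    (r := scl 2 (mulW (la 0) (la 1))) (by decide +kernel)
  rw [evW_scl, evW_mulW, ev_la, ev_la, two_eq, neg_smul, one_smul] at h
  rw [← h]
  congr 1
  simp only [evW, t0, evL_cons, evL_nil, two_eq, Nat.cast_one, one_smul, neg_smul, add_zero]
  rw [sub_eq_add_neg]

theorem a0_bb : dP (a 0 * yy - t0 * ww) = a 0 * b 1 * b 1 := by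
  rw [map_sub, d1 (deg_a 0), d1 deg_t0, d_a0, d_t0, d_yy, d_ww]
  noncomm_ring

theorem a2_bb : dP (a 2 * yy - t * ww) = a 2 * b 1 * b 1 := by
  rw [map_sub, d1 (deg_a 2), d1 deg_t, d_a2, d_t, d_yy, d_ww]
  noncomm_ring

/-- the `j`-fold Frobenius -/
theorem cob_frob {s : ℕ} {z : T} (h : IsCob ΔP.toLinearMap (1 : PS) s z) :
    IsCob ΔP.toLinearMap (1 : PS) s (Fr z) := h.map coMap_frob

theorem below (j : ℕ) :
    IsCob ΔP.toLinearMap (1 : PS) 4 (a j * b (j + 1) * b (j + 1)) := by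
  induction j with
  | zero =>
    exact ⟨a 0 * yy - t0 * ww, Submodule.sub_mem _ (deg_mul (deg_a 0) deg_yy)
      (deg_mul deg_t0 deg_ww), a0_bb⟩
  | succ j ih =>
    have h := cob_frob ih
    simpa only [map_mul, Fr_a, Fr_b] using h

theorem above (j : ℕ) :
    IsCob ΔP.toLinearMap (1 : PS) 4 (a (j + 2) * b (j + 1) * b (j + 1)) := by
  induction j with
  | zero =>
    exact ⟨a 2 * yy - t * ww, Submodule.sub_mem _ (deg_mul (deg_a 2) deg_yy)
      (deg_mul deg_t deg_ww), a2_bb⟩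
  | succ j ih =>
    have h := cob_frob ih
    simpa only [map_mul, Fr_a, Fr_b] using h

theorem divis (j : ℕ) : ∃ w ∈ deg (ZMod 3) PS 3, dP w = 0 ∧
    IsCob ΔP.toLinearMap (1 : PS) 3 (b (j + 1) * b (j + 1) - a (j + 1) * w) := by
  induction j with
  | zero =>
    refine ⟨ww, deg_ww, d_ww, -yy, Submodule.neg_mem _ deg_yy, ?_⟩
    change dP _ = _
    rw [map_neg, d_yy]
    noncomm_ring
  | succ j ih =>
    obtain ⟨w, h1, h2, h3⟩ := ih
    refine ⟨Fr w, Fr_deg h1, by rw [Fr_d, h2, map_zero], ?_⟩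
    have h := cob_frob h3
    simpa only [map_sub, map_mul, Fr_a, Fr_b] using h

theorem below' {j : ℕ} (hj : 1 ≤ j) :
    IsCob ΔP.toLinearMap (1 : PS) 4 (hP (j - 1) * bP j * bP j) := by
  obtain ⟨n, rfl⟩ := Nat.exists_eq_add_of_le hj
  have : 1 + n - 1 = n := by omega
  rw [this, Nat.add_comm, hP_eq, bP_eq]
  exact below n

theorem above' {j : ℕ} (hj : 1 ≤ j) :
    IsCob ΔP.toLinearMap (1 : PS) 4 (hP (j + 1) * bP j * bP j) := by
  obtain ⟨n, rfl⟩ := Nat.exists_eq_add_of_le hj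
  rw [Nat.add_comm 1 n, hP_eq, bP_eq]
  exact above n

theorem divis' {j : ℕ} (hj : 1 ≤ j) : ∃ w ∈ deg (ZMod 3) PS 3, dP w = 0 ∧
    IsCob ΔP.toLinearMap (1 : PS) 3 (bP j * bP j - hP j * w) := by
  obtain ⟨n, rfl⟩ := Nat.exists_eq_add_of_le hj
  rw [Nat.add_comm 1 n, hP_eq, bP_eq]
  exact divis n

end Vale.Agent.P236.H49
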