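import Vale.Agent.P236.Cob

/-!
# P236: verified computation in the cobar complex of `F_3[ξ_1, ξ_2, ξ_3]`

Words are lists of monomials `(i, j, k) = ξ_1^i ξ_2^j ξ_3^k`; linear combinations are lists of pairs
(coefficient, word).
-/

namespace Vale.Agent.P236.H49

open scoped TensorProduct
open Vale.Agent.P236

/-- exponents -/
abbrev Mo := ℕ × ℕ × ℕ

/-- the monomial -/
noncomputable def mo (m : Mo) : PS :=
  MvPolynomial.X 0 ^ m.1 * MvPolynomial.X 1 ^ m.2.1 * MvPolynomial.X 2 ^ m.2.2

/-- product of exponents -/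
def mm (a b : Mo) : Mo := (a.1 + b.1, a.2.1 + b.2.1, a.2.2 + b.2.2)

theorem mo_mm (a b : Mo) : mo (mm a b) = mo a * mo b := by
  simp only [mo, mm, pow_add]; ring

@[simp] theorem mo_zero : mo (0, 0, 0) = 1 := by simp [mo]

/-! ### linear combinations -/

section Lin
variable {κ : Type} {M : Type*} [AddCommGroup M] [Module (ZMod 3) M]

/-- value of a linear combination -/
def evL (f : κ → M) (l : List (ℕ × κ)) : M := (l.map fun t => ((t.1 : ℕ) : ZMod 3) • f t.2).sum

@[simp] theorem evL_nil (f : κ → M) : evL f [] = 0 := rfl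
@[simp] theorem evL_cons (f : κ → M) (t : ℕ × κ) (l : List (ℕ × κ)) :
    evL f (t :: l) = ((t.1 : ℕ) : ZMod 3) • f t.2 + evL f l := by simp [evL]
@[simp] theorem evL_append (f : κ → M) (l l' : List (ℕ × κ)) :
    evL f (l ++ l') = evL f l + evL f l' := by simp [evL]

theorem cast_mod (c : ℕ) : ((c % 3 : ℕ) : ZMod 3) = (c : ZMod 3) := by
  simp

/-- insertion into a sorted combination -/
def ins (lt eq : κ → κ → Bool) (c : ℕ) (k : κ) : List (ℕ × κ) → List (ℕ × κ)
  | [] => [(c, k)]
  | t :: l =>
    if eq k t.2 then (if (c + t.1) % 3 = 0 then l else ((c + t.1) % 3, k) :: l)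
    else if lt k t.2 then (c, k) :: t :: l
    else t :: ins lt eq c k l

theorem evL_ins (f : κ → M) (lt eq : κ → κ → Bool) (heq : ∀ a b, eq a b = true → a = b)
    (c : ℕ) (k : κ) (l : List (ℕ × κ)) :
    evL f (ins lt eq c k l) = (c : ZMod 3) • f k + evL f l := by
  induction l with
  | nil => simp [ins]
  | cons t l ih =>
    unfold ins
    by_cases h1 : eq k t.2 = true
    · rw [if_pos h1]
      have hk := heq _ _ h1
      by_cases h2 : (c + t.1) % 3 = 0
      · rw [if_pos h2, evL_cons, ← hk, ← add_assoc, ← add_smul, ← Nat.cast_add, ← cast_mod, h2]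
        simp
      · rw [if_neg h2, evL_cons, evL_cons, ← hk, ← add_assoc, ← add_smul, ← Nat.cast_add]
        simp only [cast_mod]
    · rw [if_neg h1]
      by_cases h3 : lt k t.2 = true
      · rw [if_pos h3]; simp
      · rw [if_neg h3, evL_cons, ih, evL_cons]; abel

/-- merge of two combinations, the number is fuel -/
def mrg (lt eq : κ → κ → Bool) : ℕ → List (ℕ × κ) → List (ℕ × κ) → List (ℕ × κ)
  | 0, l, l' => l ++ l'
  | _ + 1, [], l' => l'
  | _ + 1, t :: l, [] => t :: l
  | n + 1, t :: l, t' :: l' =>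
    if eq t.2 t'.2 then
      (if (t.1 + t'.1) % 3 = 0 then mrg lt eq n l l'
        else ((t.1 + t'.1) % 3, t.2) :: mrg lt eq n l l')
    else if lt t.2 t'.2 then t :: mrg lt eq n l (t' :: l')
    else t' :: mrg lt eq n (t :: l) l'

theorem evL_mrg (f : κ → M) (lt eq : κ → κ → Bool) (heq : ∀ a b, eq a b = true → a = b)
    (n : ℕ) (l l' : List (ℕ × κ)) :
    evL f (mrg lt eq n l l') = evL f l + evL f l' := by
  induction n generalizing l l' with
  | zero => simp [mrg]
  | succ n ih =>
    match l, l' with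
    | [], l' => simp [mrg]
    | t :: l, [] => simp [mrg]
    | t :: l, t' :: l' =>
      unfold mrg
      by_cases h1 : eq t.2 t'.2 = true
      · rw [if_pos h1]
        have hk := heq _ _ h1
        by_cases h2 : (t.1 + t'.1) % 3 = 0
        · rw [if_pos h2, ih, evL_cons, evL_cons, ← hk]
          have h3 : ((t.1 : ℕ) : ZMod 3) + ((t'.1 : ℕ) : ZMod 3) = 0 := by
            rw [← Nat.cast_add, ← cast_mod, h2]; simp
          have h4 : ((t.1 : ℕ) : ZMod 3) • f t.2 + ((t'.1 : ℕ) : ZMod 3) • f t.2 = 0 := by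
            rw [← add_smul, h3, zero_smul]
          calc evL f l + evL f l'
              = (((t.1 : ℕ) : ZMod 3) • f t.2 + ((t'.1 : ℕ) : ZMod 3) • f t.2)
                + (evL f l + evL f l') := by rw [h4, zero_add]
            _ = _ := by abel
        · rw [if_neg h2, evL_cons, ih, evL_cons, evL_cons, ← hk]
          simp only [cast_mod, Nat.cast_add, add_smul]
          abel
      · rw [if_neg h1]
        by_cases h3 : lt t.2 t'.2 = true
        · rw [if_pos h3, evL_cons, ih]; simp only [evL_cons]; abel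
        · rw [if_neg h3, evL_cons, ih]; simp only [evL_cons]; abel

/-- one round of pairwise merging -/
def pairs (lt eq : κ → κ → Bool) (n : ℕ) : List (List (ℕ × κ)) → List (List (ℕ × κ))
  | a :: b :: r => mrg lt eq n a b :: pairs lt eq n r
  | [a] => [a]
  | [] => []

/-- sum of a list of combinations by repeated pairwise merging -/
def msum (lt eq : κ → κ → Bool) (n : ℕ) : ℕ → List (List (ℕ × κ)) → List (ℕ × κ)
  | 0, r => r.flatten
  | _ + 1, [] => []
  | _ + 1, [a] => a
  | m + 1, a :: b :: r => msum lt eq n m (pairs lt eq n (a :: b :: r))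

theorem evL_flatten (f : κ → M) (r : List (List (ℕ × κ))) :
    evL f r.flatten = (r.map (evL f)).sum := by
  induction r with
  | nil => simp
  | cons a r ih => simp [ih]

theorem evL_pairs (f : κ → M) (lt eq : κ → κ → Bool) (heq : ∀ a b, eq a b = true → a = b)
    (n : ℕ) : ∀ r : List (List (ℕ × κ)), ((pairs lt eq n r).map (evL f)).sum =
      (r.map (evL f)).sum
  | a :: b :: r => by
    simp only [pairs, List.map_cons, List.sum_cons, evL_mrg f lt eq heq,
      evL_pairs f lt eq heq n r, add_assoc]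
  | [a] => rfl
  | [] => rfl

theorem evL_msum (f : κ → M) (lt eq : κ → κ → Bool) (heq : ∀ a b, eq a b = true → a = b)
    (n m : ℕ) (r : List (List (ℕ × κ))) :
    evL f (msum lt eq n m r) = (r.map (evL f)).sum := by
  induction m generalizing r with
  | zero => simp [msum, evL_flatten]
  | succ m ih =>
    match r with
    | [] => simp [msum]
    | [a] => simp [msum]
    | a :: b :: r => rw [msum, ih, evL_pairs f lt eq heq]

/-- multiples -/
def scl (c : ℕ) (l : List (ℕ × κ)) : List (ℕ × κ) := l.map fun t => ((c * t.1) % 3, t.2)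

theorem evL_scl (f : κ → M) (c : ℕ) (l : List (ℕ × κ)) :
    evL f (scl c l) = (c : ZMod 3) • evL f l := by
  induction l with
  | nil => simp [scl]
  | cons t l ih =>
    change evL f (((c * t.1) % 3, t.2) :: scl c l) = _
    rw [evL_cons, ih, evL_cons, smul_add, smul_smul]
    simp only [cast_mod, Nat.cast_mul]

end Lin

/-! ### order on monomials and words -/

/-- equality of exponents -/
def eqM (a b : Mo) : Bool := a.1 == b.1 && (a.2.1 == b.2.1 && a.2.2 == b.2.2)

/-- strict order on exponents -/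
def ltM (a b : Mo) : Bool :=
  if a.1 == b.1 then (if a.2.1 == b.2.1 then Nat.blt a.2.2 b.2.2 else Nat.blt a.2.1 b.2.1)
  else Nat.blt a.1 b.1

theorem eqM_eq (a b : Mo) (h : eqM a b = true) : a = b := by
  simp only [eqM, Bool.and_eq_true, beq_iff_eq] at h
  obtain ⟨h1, h2, h3⟩ := h
  exact Prod.ext h1 (Prod.ext h2 h3)

/-- equality of words -/
def eqW : List Mo → List Mo → Bool
  | [], [] => true
  | a :: v, b :: w => eqM a b && eqW v w
  | _, _ => false

/-- strict order on words -/
def ltW : List Mo → List Mo → Bool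
  | a :: v, b :: w => if eqM a b then ltW v w else ltM a b
  | [], _ :: _ => true
  | _, [] => false

theorem eqW_eq : ∀ v w : List Mo, eqW v w = true → v = w
  | [], [], _ => rfl
  | a :: v, b :: w, h => by
    simp only [eqW, Bool.and_eq_true] at h
    rw [eqM_eq a b h.1, eqW_eq v w h.2]
  | [], _ :: _, h => by simp [eqW] at h
  | _ :: _, [], h => by simp [eqW] at h

/-! ### coproducts -/

/-- equality of pairs of monomials -/
def eq2 (a b : Mo × Mo) : Bool := eqM a.1 b.1 && eqM a.2 b.2
/-- order on pairs of monomials -/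
def lt2 (a b : Mo × Mo) : Bool := if eqM a.1 b.1 then ltM a.2 b.2 else ltM a.1 b.1

theorem eq2_eq (a b : Mo × Mo) (h : eq2 a b = true) : a = b := by
  simp only [eq2, Bool.and_eq_true] at h
  exact Prod.ext (eqM_eq _ _ h.1) (eqM_eq _ _ h.2)

/-- combinations of pairs -/
abbrev L2 := List (ℕ × (Mo × Mo))

/-- value of a pair -/
noncomputable def v2 (t : Mo × Mo) : PS ⊗[ZMod 3] PS := mo t.1 ⊗ₜ[ZMod 3] mo t.2

/-- product of a combination with one term -/
def mul1 (c : ℕ) (k : Mo × Mo) (q : L2) : L2 :=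
  q.map fun t => ((c * t.1) % 3, (mm k.1 t.2.1, mm k.2 t.2.2))

theorem evL_mul1 (c : ℕ) (k : Mo × Mo) (q : L2) :
    evL v2 (mul1 c k q) = ((c : ZMod 3) • v2 k) * evL v2 q := by
  induction q with
  | nil => simp [mul1]
  | cons t q ih =>
    change evL v2 (((c * t.1) % 3, (mm k.1 t.2.1, mm k.2 t.2.2)) :: mul1 c k q) = _
    rw [evL_cons, ih, evL_cons, mul_add]
    congr 1
    simp only [cast_mod, Nat.cast_mul, v2, mo_mm]
    rw [← Algebra.TensorProduct.tmul_mul_tmul, smul_mul_smul_comm]

/-- product of combinations -/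
def mul2 (p q : L2) : L2 :=
  msum lt2 eq2 100000 100 (p.map fun t => mul1 t.1 t.2 q)

theorem evL_mul2 (p q : L2) : evL v2 (mul2 p q) = evL v2 p * evL v2 q := by
  rw [mul2, evL_msum _ _ _ eq2_eq]
  induction p with
  | nil => simp
  | cons t p ih =>
    rw [List.map_cons, List.map_cons, List.sum_cons, ih, evL_mul1, evL_cons, add_mul]

/-- powers -/
def pow2 (p : L2) : ℕ → L2
  | 0 => [(1, ((0, 0, 0), (0, 0, 0)))]
  | n + 1 => mul2 p (pow2 p n)

theorem evL_pow2 (p : L2) (n : ℕ) : evL v2 (pow2 p n) = evL v2 p ^ n := by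
  induction n with
  | zero =>
    simp only [pow2, evL_cons, evL_nil, pow_zero, v2]
    simp [Algebra.TensorProduct.one_def]
  | succ n ih => rw [pow2, evL_mul2, ih, pow_succ']

/-- `Δ ξ_1` -/
def cX : L2 := [(1, ((0, 0, 0), (1, 0, 0))), (1, ((1, 0, 0), (0, 0, 0)))]
/-- `Δ ξ_2` -/
def cY : L2 := [(1, ((0, 0, 0), (0, 1, 0))), (1, ((0, 1, 0), (0, 0, 0))),
  (1, ((3, 0, 0), (1, 0, 0)))]
/-- `Δ ξ_3` -/
def cZ : L2 := [(1, ((0, 0, 0), (0, 0, 1))), (1, ((0, 0, 1), (0, 0, 0))),
  (1, ((0, 3, 0), (1, 0, 0))), (1, ((9, 0, 0), (0, 1, 0)))]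

theorem ev_cX : evL v2 cX = ΔP (MvPolynomial.X 0) := by
  simp only [cX, evL_cons, evL_nil, v2, ΔP, MvPolynomial.aeval_X, Finset.sum_range_succ,
    Finset.sum_range_zero, xi, mo]
  simp [add_comm]

theorem ev_cY : evL v2 cY = ΔP (MvPolynomial.X 1) := by
  simp only [cY, evL_cons, evL_nil, v2, ΔP, MvPolynomial.aeval_X, Finset.sum_range_succ,
    Finset.sum_range_zero, xi, mo]
  simp
  abel

theorem ev_cZ : evL v2 cZ = ΔP (MvPolynomial.X 2) := by
  simp only [cZ, evL_cons, evL_nil, v2, ΔP, MvPolynomial.aeval_X, Finset.sum_range_succ,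
    Finset.sum_range_zero, xi, mo]
  simp
  abel

/-- the coproduct of a monomial -/
def cop (m : Mo) : L2 := mul2 (pow2 cX m.1) (mul2 (pow2 cY m.2.1) (pow2 cZ m.2.2))

theorem ev_cop (m : Mo) : evL v2 (cop m) = ΔP (mo m) := by
  rw [cop, evL_mul2, evL_mul2, evL_pow2, evL_pow2, evL_pow2, ev_cX, ev_cY, ev_cZ, mo]
  simp only [map_mul, map_pow]
  ring

/-! ### words -/

/-- the word -/
noncomputable def vW (w : List Mo) : TensorAlgebra (ZMod 3) PS :=
  (w.map fun m => TensorAlgebra.ι (ZMod 3) (mo m)).prod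

@[simp] theorem vW_nil : vW [] = 1 := rfl
@[simp] theorem vW_cons (m : Mo) (w : List Mo) :
    vW (m :: w) = TensorAlgebra.ι (ZMod 3) (mo m) * vW w := by simp [vW]
theorem vW_append (v w : List Mo) : vW (v ++ w) = vW v * vW w := by simp [vW]

/-- combinations of words -/
abbrev LW := List (ℕ × List Mo)

/-- value of a combination of words -/
noncomputable def evW (l : LW) : TensorAlgebra (ZMod 3) PS := evL vW l

/-- the pair as a word -/
def toW (l : L2) : LW := l.map fun t => (t.1, [t.2.1, t.2.2])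

theorem ev_toW (l : L2) : evW (toW l) = two (ZMod 3) PS (evL v2 l) := by
  induction l with
  | nil => simp [toW, evW]
  | cons t l ih =>
    change evL vW ((t.1, [t.2.1, t.2.2]) :: toW l) = _
    rw [evL_cons, evL_cons, map_add]
    change _ + evW (toW l) = _
    rw [ih]
    congr 1
    simp [v2]

/-- the differential of a letter -/
def dL (m : Mo) : LW :=
  mrg ltW eqW 100000 [(1, [(0, 0, 0), m]), (1, [m, (0, 0, 0)])] (scl 2 (toW (cop m)))

/-- the differential on `P_*` -/
noncomputable abbrev dP : TensorAlgebra (ZMod 3) PS →ₗ[ZMod 3] TensorAlgebra (ZMod 3) PS :=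
  dCob ΔP.toLinearMap (1 : PS)

theorem two_eq : ((2 : ℕ) : ZMod 3) = -1 := by decide

theorem ev_dL (m : Mo) : evW (dL m) = dP (TensorAlgebra.ι (ZMod 3) (mo m)) := by
  unfold evW dL
  rw [evL_mrg _ _ _ eqW_eq, evL_scl, two_eq]
  change _ + (-1 : ZMod 3) • evW (toW (cop m)) = _
  rw [ev_toW, ev_cop, dCob_ι, dOne_apply]
  simp only [evL_cons, evL_nil, vW_cons, vW_nil, mo_zero, mul_one, Nat.cast_one, one_smul,
    add_zero, neg_smul]
  rw [sub_eq_add_neg]
  rfl

/-- the differential of a word: list of combinations -/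
def dWd : List Mo → List LW
  | [] => []
  | m :: w => (dL m).map (fun t => (t.1, t.2 ++ w)) ::
      (dWd w).map (fun l => l.map fun t => ((2 * t.1) % 3, m :: t.2))

theorem ev_app (l : LW) (w : List Mo) :
    evL vW (l.map fun t => (t.1, t.2 ++ w)) = evL vW l * vW w := by
  induction l with
  | nil => simp
  | cons t l ih =>
    rw [List.map_cons, evL_cons, ih, evL_cons, add_mul, vW_append, smul_mul_assoc]

theorem ev_pre (m : Mo) (l : LW) :
    evL vW (l.map fun t => ((2 * t.1) % 3, m :: t.2)) =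
      -(TensorAlgebra.ι (ZMod 3) (mo m)) * evL vW l := by
  induction l with
  | nil => simp
  | cons t l ih =>
    rw [List.map_cons, evL_cons, ih, evL_cons, mul_add, vW_cons]
    simp only [cast_mod, Nat.cast_mul, two_eq]
    congr 1
    rw [mul_smul_comm, neg_mul, neg_mul, one_mul, neg_smul, smul_neg]

theorem ev_dWd (w : List Mo) : ((dWd w).map (evL vW)).sum = dP (vW w) := by
  induction w with
  | nil => simp [dWd]
  | cons m w ih =>
    rw [dWd, List.map_cons, List.sum_cons, ev_app, vW_cons, dCob_mul, ← ih]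
    have h := ev_dL m
    unfold evW at h
    rw [h, sg_ι]
    congr 1
    rw [List.map_map]
    generalize dWd w = L
    induction L with
    | nil => simp
    | cons a L ih2 =>
      rw [List.map_cons, List.sum_cons, ih2, List.map_cons, List.sum_cons, mul_add]
      congr 1
      exact ev_pre m a

/-- the differential of a combination -/
def dPl (n m : ℕ) (l : LW) : LW :=
  msum ltW eqW n m (l.map fun t => scl t.1 (msum ltW eqW n m (dWd t.2)))

theorem ev_dPl (n m : ℕ) (l : LW) : evW (dPl n m l) = dP (evW l) := by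
  unfold evW dPl
  rw [evL_msum _ _ _ eqW_eq]
  induction l with
  | nil => simp
  | cons t l ih =>
    rw [List.map_cons, List.map_cons, List.sum_cons, ih, evL_cons, map_add, map_smul, evL_scl,
      evL_msum _ _ _ eqW_eq, ev_dWd]

/-- the check `d l = r` -/
def chk (n m : ℕ) (l r : LW) : Bool :=
  (mrg ltW eqW n (dPl n m l) (msum ltW eqW n m (r.map fun t => [((2 * t.1) % 3, t.2)]))).isEmpty

theorem of_chk {n m : ℕ} {l r : LW} (h : chk n m l r = true) : dP (evW l) = evW r := by
  unfold chk at h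
  rw [List.isEmpty_iff] at h
  have h1 := congrArg (evL vW) h
  rw [evL_mrg _ _ _ eqW_eq, evL_nil, evL_msum _ _ _ eqW_eq] at h1
  have h2 := ev_dPl n m l
  unfold evW at h2 ⊢
  rw [h2] at h1
  have h3 : ((r.map fun t => [((2 * t.1) % 3, t.2)]).map (evL vW)).sum = -(evL vW r) := by
    clear h1 h h2
    induction r with
    | nil => simp
    | cons t r ih =>
      rw [List.map_cons, List.map_cons, List.sum_cons, ih, evL_cons, evL_cons, evL_nil]
      simp only [cast_mod, Nat.cast_mul, two_eq]
      rw [neg_one_mul, neg_smul]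
      abel
  rw [h3] at h1
  exact eq_of_sub_eq_zero (by rw [sub_eq_add_neg]; exact h1)

end Vale.Agent.P236.H49
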